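import Mathlib

namespace Vale.Agent.H6.AKS

open SimpleGraph

/-- The Alon-Krivelevich-Sudakov bound for a fixed graph `F`. -/
def AKS {V : Type} (F : SimpleGraph V) : Prop :=
  ∃ (C : ℝ) (D : ℕ), ∀ (W : Type) [Fintype W] [DecidableEq W] (G : SimpleGraph W)
    [DecidableRel G.Adj], D ≤ G.maxDegree → F.Free G →
    ∃ k : ℕ, (k : ℝ) ≤ C * ((G.maxDegree : ℝ) / Real.log (G.maxDegree : ℝ)) ∧ G.Colorable k

/-- A separation of `F` at no vertex or at one vertex. -/
def Separation {V : Type} (F : SimpleGraph V) (A B : Set V) : Prop :=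
  A ∪ B = Set.univ ∧ (A ∩ B).Subsingleton ∧
    ∀ x y, x ∈ A → x ∉ B → y ∈ B → y ∉ A → ¬ F.Adj x y

/-- `F` has no cut vertex and is connected: it has no separation with two proper sides. -/
def Nonseparable {V : Type} (F : SimpleGraph V) : Prop :=
  ∀ A B : Set V, Separation F A B → A = Set.univ ∨ B = Set.univ

theorem digraph_aux {N : Type} [Fintype N] [DecidableEq N] (S : N → Finset N) (b : ℕ)
    (hS : ∀ x, (S x).card ≤ b) (s : Finset N) :
    ∃ c : N → Fin (2 * b + 1), ∀ x ∈ s, ∀ y ∈ s, y ∈ S x → x ≠ y → c x ≠ c y := by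
  classical
  induction hn : s.card using Nat.strong_induction_on generalizing s with
  | _ n ih =>
    rcases s.eq_empty_or_nonempty with rfl | hne
    · exact ⟨fun _ => 0, by simp⟩
    · -- a vertex of small in-degree
      have hex : ∃ x ∈ s, (s.filter (fun y => x ∈ S y)).card ≤ b := by
        by_contra hcon
        push Not at hcon
        have h1 : ∑ x ∈ s, (s.filter (fun y => x ∈ S y)).card
            = ∑ y ∈ s, (s.filter (fun x => x ∈ S y)).card := by
          simp only [Finset.card_filter]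
          rw [Finset.sum_comm]
        have h2 : ∑ y ∈ s, (s.filter (fun x => x ∈ S y)).card ≤ ∑ y ∈ s, b := by
          refine Finset.sum_le_sum fun y _ => ?_
          refine le_trans (Finset.card_le_card ?_) (hS y)
          intro x hx
          exact (Finset.mem_filter.1 hx).2
        have h3 : ∑ y ∈ s, b < ∑ x ∈ s, (s.filter (fun y => x ∈ S y)).card :=
          Finset.sum_lt_sum_of_nonempty hne fun x hx => hcon x hx
        omega
      obtain ⟨x, hxs, hx⟩ := hex
      obtain ⟨c, hc⟩ := ih (s.erase x).card (by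
        rw [← hn]; exact Finset.card_erase_lt_of_mem hxs) (s.erase x) rfl
      -- forbidden colours
      let Fb : Finset (Fin (2 * b + 1)) :=
        ((S x) ∪ s.filter (fun y => x ∈ S y)).image c
      have hF : Fb.card ≤ 2 * b := by
        refine le_trans Finset.card_image_le ?_
        refine le_trans (Finset.card_union_le _ _) ?_
        have := hS x
        omega
      have hcol : ∃ i, i ∉ Fb := by
        by_contra hall
        push Not at hall
        have : Fb = Finset.univ := Finset.eq_univ_iff_forall.2 hall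
        rw [this, Finset.card_univ, Fintype.card_fin] at hF
        omega
      obtain ⟨i, hi⟩ := hcol
      refine ⟨Function.update c x i, ?_⟩
      intro y hy z hz hzy hne'
      by_cases hyx : y = x
      · subst hyx
        rw [Function.update_self, Function.update_of_ne (Ne.symm hne')]
        rintro rfl
        exact hi (Finset.mem_image_of_mem c (Finset.mem_union_left _ hzy))
      · by_cases hzx : z = x
        · subst hzx
          rw [Function.update_self, Function.update_of_ne hyx]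
          intro h
          apply hi
          rw [← h]
          exact Finset.mem_image_of_mem c
            (Finset.mem_union_right _ (Finset.mem_filter.2 ⟨hy, hzy⟩))
        · rw [Function.update_of_ne hyx, Function.update_of_ne hzx]
          exact hc y (Finset.mem_erase.2 ⟨hyx, hy⟩) z (Finset.mem_erase.2 ⟨hzx, hz⟩) hzy hne'

theorem digraph_col {N : Type} [Fintype N] [DecidableEq N] (S : N → Finset N) (b : ℕ)
    (hS : ∀ x, (S x).card ≤ b) :
    ∃ c : N → Fin (2 * b + 1), ∀ x y, y ∈ S x → x ≠ y → c x ≠ c y := by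
  obtain ⟨c, hc⟩ := digraph_aux S b hS Finset.univ
  exact ⟨c, fun x y => hc x (Finset.mem_univ _) y (Finset.mem_univ _)⟩

theorem colorable_of_deg {W : Type} [Fintype W] (G : SimpleGraph W) (d : ℕ)
    (hd : ∀ x, (G.neighborSet x).ncard ≤ d) : G.Colorable (2 * d + 1) := by
  classical
  obtain ⟨c, hc⟩ := digraph_col (fun x => G.neighborFinset x) d (fun x => by
    rw [← Set.ncard_coe_finset, SimpleGraph.coe_neighborFinset]; exact hd x)
  exact ⟨Coloring.mk c fun {x y} h => hc x y (by simpa using h) h.ne⟩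

theorem colorable_union {W : Type} (G : SimpleGraph W) (R : Set W) (m kA kB : ℕ)
    (c : W → Fin m) (hR : (G.induce R).Colorable kB)
    (hN : ∀ i, (G.induce {x | x ∉ R ∧ c x = i}).Colorable kA) :
    G.Colorable (kB + m * kA) := by
  classical
  obtain ⟨cR⟩ := hR
  have cN : ∀ i, (G.induce {x | x ∉ R ∧ c x = i}).Coloring (Fin kA) := fun i => (hN i).some
  let col : W → Fin kB ⊕ (Fin m × Fin kA) := fun x =>
    if hx : x ∈ R then Sum.inl (cR ⟨x, hx⟩) else Sum.inr (c x, cN (c x) ⟨x, hx, rfl⟩)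
  have h1 : ∀ x (hx : x ∈ R), col x = Sum.inl (cR ⟨x, hx⟩) := fun x hx => by
    simp only [col, dif_pos hx]
  have h2 : ∀ i x (hx : x ∉ R) (hi : c x = i), col x = Sum.inr (i, cN i ⟨x, hx, hi⟩) := by
    rintro i x hx rfl
    simp only [col, dif_neg hx]
  have hcol : ∀ {x y}, G.Adj x y → col x ≠ col y := by
    intro x y hxy
    by_cases hx : x ∈ R
    · by_cases hy : y ∈ R
      · rw [h1 x hx, h1 y hy]
        intro h
        have hh := Sum.inl.inj h
        exact cR.valid (show (G.induce R).Adj ⟨x, hx⟩ ⟨y, hy⟩ from hxy) hh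
      · rw [h1 x hx, h2 _ y hy rfl]
        exact Sum.inl_ne_inr
    · by_cases hy : y ∈ R
      · rw [h1 y hy, h2 _ x hx rfl]
        exact Sum.inr_ne_inl
      · by_cases hc : c x = c y
        · rw [h2 (c y) x hx hc, h2 (c y) y hy rfl]
          intro h
          have hh := (Prod.mk.inj (Sum.inr.inj h)).2
          exact (cN (c y)).valid
            (show (G.induce {z | z ∉ R ∧ c z = c y}).Adj ⟨x, hx, hc⟩ ⟨y, hy, rfl⟩ from hxy) hh
        · rw [h2 _ x hx rfl, h2 _ y hy rfl]
          intro h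
          exact hc (Prod.mk.inj (Sum.inr.inj h)).1
  have := (Coloring.mk col hcol : G.Coloring (Fin kB ⊕ (Fin m × Fin kA))).colorable
  simpa using this

theorem div_log_mono {x y : ℝ} (hx : 3 ≤ x) (hxy : x ≤ y) :
    x / Real.log x ≤ y / Real.log y := by
  have he : Real.exp 1 ≤ 3 := by
    have := Real.exp_one_lt_d9
    linarith
  have h := Real.log_div_self_antitoneOn (show x ∈ {x : ℝ | Real.exp 1 ≤ x} from le_trans he hx)
    (show y ∈ {x : ℝ | Real.exp 1 ≤ x} from le_trans he (le_trans hx hxy)) hxy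
  have hlx : 0 < Real.log x := Real.log_pos (by linarith)
  have hly : 0 < Real.log y := Real.log_pos (by linarith)
  have hx0 : 0 < x := by linarith
  have hy0 : 0 < y := by linarith
  have h' : Real.log y / y ≤ Real.log x / x := h
  rw [div_le_div_iff₀ hy0 hx0] at h'
  rw [div_le_div_iff₀ hlx hly]
  linarith

theorem one_le_div_log {y : ℝ} (hy : 3 ≤ y) : 1 ≤ y / Real.log y := by
  have hly : 0 < Real.log y := Real.log_pos (by linarith)
  rw [le_div_iff₀ hly]
  have := Real.log_le_sub_one_of_pos (show (0 : ℝ) < y by linarith)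
  linarith

theorem AKS.bound {V : Type} {F : SimpleGraph V} (h : AKS F) :
    ∃ (C : ℝ) (D : ℕ), 0 ≤ C ∧ 3 ≤ D ∧ ∀ Δ : ℕ, D ≤ Δ → ∀ (W : Type) [Fintype W]
      (G : SimpleGraph W), (∀ x, (G.neighborSet x).ncard ≤ Δ) → F.Free G →
      G.Colorable ⌊C * ((Δ : ℝ) / Real.log (Δ : ℝ))⌋₊ := by
  classical
  obtain ⟨C0, D0, h0⟩ := h
  refine ⟨|C0| + (2 * ((max D0 3 : ℕ) : ℝ) + 1), max D0 3, by positivity, le_max_right _ _, ?_⟩
  intro Δ hΔ W _ G hG hF
  have hΔ3 : (3 : ℝ) ≤ Δ := by
    have : 3 ≤ Δ := le_trans (le_max_right _ _) hΔ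
    exact_mod_cast this
  have hone := one_le_div_log hΔ3
  have hmax : G.maxDegree ≤ Δ := by
    refine G.maxDegree_le_of_forall_degree_le Δ fun x => ?_
    have := hG x
    rwa [← SimpleGraph.coe_neighborFinset, Set.ncard_coe_finset, card_neighborFinset_eq_degree]
      at this
  by_cases hδ : max D0 3 ≤ G.maxDegree
  · obtain ⟨k, hk, hcol⟩ := h0 W G (le_trans (le_max_left _ _) hδ) hF
    refine hcol.mono (Nat.le_floor ?_)
    have h3 : (3 : ℝ) ≤ (G.maxDegree : ℝ) := by
      have : 3 ≤ G.maxDegree := le_trans (le_max_right _ _) hδ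
      exact_mod_cast this
    have hm : ((G.maxDegree : ℝ)) / Real.log (G.maxDegree : ℝ) ≤ (Δ : ℝ) / Real.log (Δ : ℝ) :=
      div_log_mono h3 (by exact_mod_cast hmax)
    have hpos : 0 ≤ ((G.maxDegree : ℝ)) / Real.log (G.maxDegree : ℝ) :=
      le_trans zero_le_one (one_le_div_log h3)
    calc (k : ℝ) ≤ C0 * ((G.maxDegree : ℝ) / Real.log (G.maxDegree : ℝ)) := hk
      _ ≤ |C0| * ((G.maxDegree : ℝ) / Real.log (G.maxDegree : ℝ)) :=
          mul_le_mul_of_nonneg_right (le_abs_self _) hpos
      _ ≤ |C0| * ((Δ : ℝ) / Real.log (Δ : ℝ)) := mul_le_mul_of_nonneg_left hm (abs_nonneg _)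
      _ ≤ (|C0| + (2 * ((max D0 3 : ℕ) : ℝ) + 1)) * ((Δ : ℝ) / Real.log (Δ : ℝ)) := by
          refine mul_le_mul_of_nonneg_right ?_ (le_trans zero_le_one hone)
          have : (0 : ℝ) ≤ ((max D0 3 : ℕ) : ℝ) := Nat.cast_nonneg _
          linarith
  · push Not at hδ
    have hcol : G.Colorable (2 * G.maxDegree + 1) := by
      refine colorable_of_deg G _ fun x => ?_
      rw [← SimpleGraph.coe_neighborFinset, Set.ncard_coe_finset, card_neighborFinset_eq_degree]
      exact G.degree_le_maxDegree x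
    refine hcol.mono (Nat.le_floor ?_)
    have h1 : ((2 * G.maxDegree + 1 : ℕ) : ℝ) ≤ 2 * ((max D0 3 : ℕ) : ℝ) + 1 := by
      have : (2 * G.maxDegree + 1 : ℕ) ≤ 2 * (max D0 3) + 1 := by omega
      exact_mod_cast this
    have h2 : (0 : ℝ) ≤ 2 * ((max D0 3 : ℕ) : ℝ) + 1 := by positivity
    calc ((2 * G.maxDegree + 1 : ℕ) : ℝ) ≤ 2 * ((max D0 3 : ℕ) : ℝ) + 1 := h1
      _ ≤ (2 * ((max D0 3 : ℕ) : ℝ) + 1) * ((Δ : ℝ) / Real.log (Δ : ℝ)) :=
          le_mul_of_one_le_right h2 hone
      _ ≤ (|C0| + (2 * ((max D0 3 : ℕ) : ℝ) + 1)) * ((Δ : ℝ) / Real.log (Δ : ℝ)) := by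
          refine mul_le_mul_of_nonneg_right ?_ (le_trans zero_le_one hone)
          have := abs_nonneg C0
          linarith

theorem ncard_induce_le {W : Type} [Fintype W] (G : SimpleGraph W) (R : Set W) (Δ : ℕ)
    (hG : ∀ x, (G.neighborSet x).ncard ≤ Δ) (x : R) :
    ((G.induce R).neighborSet x).ncard ≤ Δ := by
  classical
  refine le_trans ?_ (hG x)
  rw [← Set.ncard_image_of_injective _ Subtype.val_injective]
  refine Set.ncard_le_ncard ?_ (Set.toFinite _)
  rintro _ ⟨y, hy, rfl⟩
  exact hy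

/-- Combine copies on the two sides of a separation. -/
theorem combine {V W : Type} (F : SimpleGraph V) (G : SimpleGraph W) (A B : Set V)
    (hAB : A ∪ B = Set.univ)
    (hE : ∀ x y, x ∈ A → x ∉ B → y ∈ B → y ∉ A → ¬ F.Adj x y)
    (f : Copy (F.induce A) G) (g : Copy (F.induce B) G)
    (hag : ∀ u (ha : u ∈ A) (hb : u ∈ B), f ⟨u, ha⟩ = g ⟨u, hb⟩)
    (hdis : ∀ u (ha : u ∈ A) w (hb : w ∈ B), w ∉ A → f ⟨u, ha⟩ ≠ g ⟨w, hb⟩) :
    F.IsContained G := by
  classical
  have hB : ∀ u, u ∉ A → u ∈ B := fun u hu => by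
    have : u ∈ A ∪ B := by rw [hAB]; trivial
    exact this.resolve_left hu
  let h : V → W := fun u => if hu : u ∈ A then f ⟨u, hu⟩ else g ⟨u, hB u hu⟩
  have h1 : ∀ u (hu : u ∈ A), h u = f ⟨u, hu⟩ := fun u hu => by simp only [h, dif_pos hu]
  have h2 : ∀ u (hu : u ∈ B), h u = g ⟨u, hu⟩ := fun u hu => by
    by_cases ha : u ∈ A
    · rw [h1 u ha]; exact hag u ha hu
    · simp only [h, dif_neg ha]
  refine ⟨⟨⟨h, ?_⟩, ?_⟩⟩
  · intro a b hab
    by_cases ha : a ∈ A
    · by_cases hb : b ∈ A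
      · rw [h1 a ha, h1 b hb]
        exact f.toHom.map_adj (show (F.induce A).Adj ⟨a, ha⟩ ⟨b, hb⟩ from hab)
      · by_cases ha' : a ∈ B
        · rw [h2 a ha', h2 b (hB b hb)]
          exact g.toHom.map_adj (show (F.induce B).Adj ⟨a, ha'⟩ ⟨b, hB b hb⟩ from hab)
        · exact absurd hab (hE a b ha ha' (hB b hb) hb)
    · by_cases hb : b ∈ B
      · rw [h2 a (hB a ha), h2 b hb]
        exact g.toHom.map_adj (show (F.induce B).Adj ⟨a, hB a ha⟩ ⟨b, hb⟩ from hab)
      · have hbA : b ∈ A := by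
          by_contra hbA
          exact hb (hB b hbA)
        exact absurd hab.symm (hE b a hbA hb (hB a ha) ha)
  · intro a b hab
    change h a = h b at hab
    by_cases ha : a ∈ A
    · by_cases hb : b ∈ A
      · rw [h1 a ha, h1 b hb] at hab
        exact congrArg Subtype.val (f.injective hab)
      · rw [h1 a ha, h2 b (hB b hb)] at hab
        exact absurd hab (hdis a ha b (hB b hb) hb)
    · by_cases hb : b ∈ A
      · rw [h1 b hb, h2 a (hB a ha)] at hab
        exact absurd hab.symm (hdis b hb a (hB a ha) ha)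
      · rw [h2 a (hB a ha), h2 b (hB b hb)] at hab
        exact congrArg Subtype.val (g.injective hab)

end Vale.Agent.H6.AKS
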