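import Vale.Agent.H6.AKS.Glue

namespace Vale.Agent.H6.AKS

open SimpleGraph

theorem step_vertex {V : Type} [Fintype V] (F : SimpleGraph V) (A B : Set V) (v : V)
    (hvA : v ∈ A) (hvB : v ∈ B) (hAB : A ∪ B = Set.univ) (hsub : (A ∩ B).Subsingleton)
    (hE : ∀ x y, x ∈ A → x ∉ B → y ∈ B → y ∉ A → ¬ F.Adj x y)
    (Δ kA kB : ℕ)
    (hA : ∀ (W : Type) [Fintype W] (G : SimpleGraph W), (∀ x, (G.neighborSet x).ncard ≤ Δ) →
      (F.induce A).Free G → G.Colorable kA)
    (hB : ∀ (W : Type) [Fintype W] (G : SimpleGraph W), (∀ x, (G.neighborSet x).ncard ≤ Δ) →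
      (F.induce B).Free G → G.Colorable kB)
    (W : Type) [Fintype W] (G : SimpleGraph W) (hG : ∀ x, (G.neighborSet x).ncard ≤ Δ)
    (hF : F.Free G) : G.Colorable (kB + (2 * Fintype.card V + 1) * kA) := by
  classical
  -- rich vertices
  let rich : W → Prop := fun x => ∀ S : Finset W, x ∉ S → S.card ≤ Fintype.card V →
    ∃ f : Copy (F.induce A) G, f ⟨v, hvA⟩ = x ∧ ∀ u : A, (u : V) ≠ v → f u ∉ S
  let R : Set W := {x | rich x}
  have hRfree : (F.induce B).Free (G.induce R) := by
    rintro ⟨g⟩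
    let g' : Copy (F.induce B) G := (Copy.induce G R).comp g
    have hg' : ∀ u, g' u = (g u : W) := fun u => rfl
    have hx : rich (g' ⟨v, hvB⟩) := by
      rw [hg']; exact (g ⟨v, hvB⟩).2
    obtain ⟨f, hfv, hf⟩ := hx ((Finset.univ.image (fun u : B => g' u)).erase (g' ⟨v, hvB⟩))
      (Finset.notMem_erase _ _) (by
        refine le_trans (Finset.card_erase_le) ?_
        refine le_trans Finset.card_image_le ?_
        rw [Finset.card_univ]
        exact Fintype.card_subtype_le _)
    apply hF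
    refine combine F G A B hAB hE f g' ?_ ?_
    · intro u ha hb
      have : u = v := hsub ⟨ha, hb⟩ ⟨hvA, hvB⟩
      subst this
      exact hfv
    · intro u ha w hb hwA h
      have hwv : w ≠ v := fun h => hwA (h ▸ hvA)
      have hne : g' ⟨w, hb⟩ ≠ g' ⟨v, hvB⟩ := fun h =>
        hwv (congrArg Subtype.val (g'.injective h))
      by_cases huv : u = v
      · subst huv
        rw [hfv] at h
        exact hne h.symm
      · apply hf ⟨u, ha⟩ huv
        rw [h]
        exact Finset.mem_erase.2 ⟨hne, Finset.mem_image_of_mem (fun u : B => g' u)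
          (Finset.mem_univ (⟨w, hb⟩ : B))⟩
  -- hitting sets of the other vertices
  have hS : ∀ x, ∃ S : Finset W, S.card ≤ Fintype.card V ∧ (x ∉ R → x ∉ S ∧
      ∀ f : Copy (F.induce A) G, f ⟨v, hvA⟩ = x → ∃ u : A, (u : V) ≠ v ∧ f u ∈ S) := by
    intro x
    by_cases hx : rich x
    · exact ⟨∅, by simp, fun h => absurd hx h⟩
    · have hx' := hx
      simp only [rich] at hx'
      push Not at hx'
      obtain ⟨S, hxS, hc, hS⟩ := hx'
      exact ⟨S, hc, fun _ => ⟨hxS, hS⟩⟩
  choose S hSc hSx using hS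
  obtain ⟨c, hc⟩ := digraph_col S (Fintype.card V) hSc
  refine colorable_union G R (2 * Fintype.card V + 1) kA kB c ?_ ?_
  · exact hB _ _ (ncard_induce_le G R Δ hG) hRfree
  · intro i
    refine hA _ _ (ncard_induce_le G _ Δ hG) ?_
    rintro ⟨g⟩
    let f : Copy (F.induce A) G := (Copy.induce G {x | x ∉ R ∧ c x = i}).comp g
    have hf : ∀ u, f u = (g u : W) := fun u => rfl
    have hmem : ∀ u, f u ∉ R ∧ c (f u) = i := fun u => by
      rw [hf]; exact (g u).2
    obtain ⟨hxS, hall⟩ := hSx (f ⟨v, hvA⟩) (hmem _).1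
    obtain ⟨u, huv, hu⟩ := hall f rfl
    have hne : f ⟨v, hvA⟩ ≠ f u := fun h => hxS (h ▸ hu)
    exact hc _ _ hu hne ((hmem _).2.trans (hmem _).2.symm)

theorem step_disjoint {V : Type} [Fintype V] (F : SimpleGraph V) (A B : Set V)
    (hAB : A ∪ B = Set.univ) (hdis : A ∩ B = ∅)
    (hE : ∀ x y, x ∈ A → x ∉ B → y ∈ B → y ∉ A → ¬ F.Adj x y)
    (Δ kA kB : ℕ)
    (hA : ∀ (W : Type) [Fintype W] (G : SimpleGraph W), (∀ x, (G.neighborSet x).ncard ≤ Δ) →
      (F.induce A).Free G → G.Colorable kA)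
    (hB : ∀ (W : Type) [Fintype W] (G : SimpleGraph W), (∀ x, (G.neighborSet x).ncard ≤ Δ) →
      (F.induce B).Free G → G.Colorable kB)
    (W : Type) [Fintype W] (G : SimpleGraph W) (hG : ∀ x, (G.neighborSet x).ncard ≤ Δ)
    (hF : F.Free G) : G.Colorable (kA + (kB + Fintype.card V)) := by
  classical
  by_cases hfree : (F.induce A).Free G
  · exact (hA W G hG hfree).mono (Nat.le_add_right _ _)
  · rw [SimpleGraph.not_free] at hfree
    obtain ⟨f⟩ := hfree
    let R : Set W := {x | ∀ u : A, f u ≠ x}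
    have hRfree : (F.induce B).Free (G.induce R) := by
      rintro ⟨g⟩
      let g' : Copy (F.induce B) G := (Copy.induce G R).comp g
      have hg' : ∀ u, g' u = (g u : W) := fun u => rfl
      apply hF
      refine combine F G A B hAB hE f g' ?_ ?_
      · intro u ha hb
        have : u ∈ A ∩ B := ⟨ha, hb⟩
        rw [hdis] at this
        exact absurd this (Set.notMem_empty u)
      · intro u ha w hb _
        rw [hg']
        exact (g ⟨w, hb⟩).2 ⟨u, ha⟩
    obtain ⟨cR⟩ := hB _ _ (ncard_induce_le G R Δ hG) hRfree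
    have hch : ∀ x, x ∉ R → ∃ u : A, f u = x := by
      intro x hx
      by_contra hcon
      push Not at hcon
      exact hx hcon
    let col : W → Fin kB ⊕ V := fun x =>
      if hx : x ∈ R then Sum.inl (cR ⟨x, hx⟩) else Sum.inr ((hch x hx).choose : V)
    have h1 : ∀ x (hx : x ∈ R), col x = Sum.inl (cR ⟨x, hx⟩) := fun x hx => by
      simp only [col, dif_pos hx]
    have h2 : ∀ x (hx : x ∉ R), col x = Sum.inr ((hch x hx).choose : V) := fun x hx => by
      simp only [col, dif_neg hx]
    have hcol : ∀ {x y}, G.Adj x y → col x ≠ col y := by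
      intro x y hxy
      by_cases hx : x ∈ R
      · by_cases hy : y ∈ R
        · rw [h1 x hx, h1 y hy]
          intro h
          exact cR.valid (show (G.induce R).Adj ⟨x, hx⟩ ⟨y, hy⟩ from hxy) (Sum.inl.inj h)
        · rw [h1 x hx, h2 y hy]
          exact Sum.inl_ne_inr
      · by_cases hy : y ∈ R
        · rw [h1 y hy, h2 x hx]
          exact Sum.inr_ne_inl
        · rw [h2 x hx, h2 y hy]
          intro h
          have h' : (hch x hx).choose = (hch y hy).choose := Subtype.ext (Sum.inr.inj h)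
          apply hxy.ne
          rw [← (hch x hx).choose_spec, ← (hch y hy).choose_spec, h']
    have := (Coloring.mk col hcol : G.Coloring (Fin kB ⊕ V)).colorable
    have h3 : G.Colorable (kB + Fintype.card V) := by simpa using this
    exact h3.mono (Nat.le_add_left _ _)

/-- The class of graphs with the AKS bound is closed under gluing along at most one vertex. -/
theorem glue {V : Type} [Fintype V] (F : SimpleGraph V) (A B : Set V)
    (hs : Separation F A B) (hA : AKS (F.induce A)) (hB : AKS (F.induce B)) : AKS F := by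
  classical
  obtain ⟨hAB, hsub, hE⟩ := hs
  obtain ⟨CA, DA, hCA, hDA, hA⟩ := hA.bound
  obtain ⟨CB, DB, hCB, hDB, hB⟩ := hB.bound
  refine ⟨(2 * (Fintype.card V : ℝ) + 1) * CA + (CB + Fintype.card V), max DA DB, ?_⟩
  intro W _ _ G _ hΔ hF
  set Δ := G.maxDegree with hΔdef
  have hG : ∀ x, (G.neighborSet x).ncard ≤ Δ := fun x => by
    rw [← SimpleGraph.coe_neighborFinset, Set.ncard_coe_finset, card_neighborFinset_eq_degree]
    exact G.degree_le_maxDegree x
  have hA' := hA Δ (le_trans (le_max_left _ _) hΔ)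
  have hB' := hB Δ (le_trans (le_max_right _ _) hΔ)
  have hΔ3 : (3 : ℝ) ≤ Δ := by
    have : 3 ≤ Δ := le_trans hDA (le_trans (le_max_left _ _) hΔ)
    exact_mod_cast this
  have hone := one_le_div_log hΔ3
  set t : ℝ := (Δ : ℝ) / Real.log (Δ : ℝ) with ht
  have ht0 : 0 ≤ t := le_trans zero_le_one hone
  have hfA : ((⌊CA * t⌋₊ : ℕ) : ℝ) ≤ CA * t := Nat.floor_le (mul_nonneg hCA ht0)
  have hfB : ((⌊CB * t⌋₊ : ℕ) : ℝ) ≤ CB * t := Nat.floor_le (mul_nonneg hCB ht0)
  have hcard : (0 : ℝ) ≤ (Fintype.card V : ℝ) := Nat.cast_nonneg _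
  rcases (A ∩ B).eq_empty_or_nonempty with hem | ⟨v, hvA, hvB⟩
  · refine ⟨_, ?_, step_disjoint F A B hAB hem hE Δ _ _ hA' hB' W G hG hF⟩
    push_cast
    have h1 : (Fintype.card V : ℝ) ≤ (Fintype.card V : ℝ) * t := le_mul_of_one_le_right hcard hone
    have h2 : 0 ≤ (Fintype.card V : ℝ) * (CA * t) :=
      mul_nonneg hcard (mul_nonneg hCA ht0)
    nlinarith [hfA, hfB, h1, h2]
  · refine ⟨_, ?_, step_vertex F A B v hvA hvB hAB hsub hE Δ _ _ hA' hB' W G hG hF⟩
    push_cast
    have h1 : (2 * (Fintype.card V : ℝ) + 1) * ((⌊CA * t⌋₊ : ℕ) : ℝ)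
        ≤ (2 * (Fintype.card V : ℝ) + 1) * (CA * t) :=
      mul_le_mul_of_nonneg_left hfA (by positivity)
    have h2 : 0 ≤ (Fintype.card V : ℝ) * t := mul_nonneg hcard ht0
    nlinarith [hfB, h1, h2]

theorem AKS.iso {V V' : Type} {F : SimpleGraph V} {F' : SimpleGraph V'} (e : F ≃g F')
    (h : AKS F) : AKS F' := by
  obtain ⟨C, D, h⟩ := h
  exact ⟨C, D, fun W _ _ G _ hD hF => h W G hD ((SimpleGraph.free_congr_left e).2 hF)⟩

theorem AKS.sub {V : Type} (F : SimpleGraph V) (A : Set V) (h : AKS F) : AKS (F.induce A) := by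
  obtain ⟨C, D, h⟩ := h
  refine ⟨C, D, fun W _ _ G _ hD hF => h W G hD fun hc => hF ?_⟩
  exact (IsContained.trans ⟨Copy.induce F A⟩ hc)

/-- The bound for `F` is equivalent to the bound for both sides of a separation. -/
theorem glue_iff {V : Type} [Fintype V] (F : SimpleGraph V) (A B : Set V)
    (hs : Separation F A B) : AKS F ↔ AKS (F.induce A) ∧ AKS (F.induce B) :=
  ⟨fun h => ⟨AKS.sub F A h, AKS.sub F B h⟩, fun h => glue F A B hs h.1 h.2⟩

/-- Iterated induced subgraphs. -/
def induceIso {V : Type} (F : SimpleGraph V) (S : Set V) (A : Set S) :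
    ((F.induce S).induce A) ≃g (F.induce (Subtype.val '' A)) where
  toEquiv := {
    toFun := fun x => ⟨(x : S), ⟨x.1, x.2, rfl⟩⟩
    invFun := fun y => ⟨⟨(y : V), by
      obtain ⟨z, _, hz⟩ := y.2
      rw [← hz]; exact z.2⟩, by
      obtain ⟨z, hzA, hz⟩ := y.2
      have : z = ⟨(y : V), by rw [← hz]; exact z.2⟩ := Subtype.ext hz
      rw [← this]; exact hzA⟩
    left_inv := fun x => rfl
    right_inv := fun y => rfl }
  map_rel_iff' := Iff.rfl

/-- If every nonseparable induced subgraph of `F` has the bound, then `F` has it. -/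
theorem blocks {V : Type} [Fintype V] (F : SimpleGraph V)
    (h : ∀ S : Set V, Nonseparable (F.induce S) → AKS (F.induce S)) : AKS F := by
  classical
  have key : ∀ n : ℕ, ∀ S : Set V, S.ncard = n → AKS (F.induce S) := by
    intro n
    induction n using Nat.strong_induction_on with
    | _ n ih =>
      intro S hn
      by_cases hs : Nonseparable (F.induce S)
      · exact h S hs
      · unfold Nonseparable at hs
        push Not at hs
        obtain ⟨A, B, hsep, hA, hB⟩ := hs
        have hstep : ∀ A : Set S, A ≠ Set.univ → AKS ((F.induce S).induce A) := by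
          intro A hA
          have hlt : (Subtype.val '' A : Set V).ncard < n := by
            rw [← hn]
            refine Set.ncard_lt_ncard ?_ (Set.toFinite S)
            obtain ⟨x, hx⟩ := (Set.ne_univ_iff_exists_notMem A).1 hA
            refine ⟨?_, fun hsub => ?_⟩
            · rintro _ ⟨y, _, rfl⟩
              exact y.2
            · obtain ⟨y, hy, hyx⟩ := hsub x.2
              have : y = x := Subtype.ext hyx
              exact hx (this ▸ hy)
          exact AKS.iso (induceIso F S A).symm (ih _ hlt _ rfl)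
        exact glue (F.induce S) A B hsep (hstep A hA) (hstep B hB)
  refine AKS.iso (F := F.induce Set.univ) ?_ (key _ Set.univ rfl)
  exact {
    toEquiv := Equiv.Set.univ V
    map_rel_iff' := Iff.rfl }

end Vale.Agent.H6.AKS
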